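import Mathlib

/-!
# P271 / DER: differentials at a point (helper995)

`exists_smul_D`: if the classes of `X j - X j(φ)` span the cotangent space at `φ` then, after
multiplication by one element `r` with `φ r = 1`, all differentials are combinations of the `dX j`.
-/

namespace Vale.Agent.P271.H995

open KaehlerDifferential

section Nak

variable {k R : Type*} [Field k] [CommRing R] [Algebra k R]

/-- The cotangent space at `φ` is spanned by the `X j`. -/
def Span {ι : Type*} [Fintype ι] (φ : R →ₐ[k] k) (X : ι → R) : Prop :=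
  ∀ s : R, ∃ c : ι → k, s - algebraMap k R (φ s) -
    ∑ j, c j • (X j - algebraMap k R (φ (X j))) ∈ RingHom.ker φ ^ 2

theorem D_mem_of_mem_sq (φ : R →ₐ[k] k) {s : R} (hs : s ∈ RingHom.ker φ ^ 2) :
    D k R s ∈ (RingHom.ker φ) • (⊤ : Submodule R (Ω[R⁄k])) := by
  rw [pow_two] at hs
  refine Submodule.mul_induction_on hs ?_ ?_
  · intro a ha b hb
    rw [Derivation.leibniz]
    exact add_mem (Submodule.smul_mem_smul ha trivial) (Submodule.smul_mem_smul hb trivial)
  · intro a b ha hb
    rw [map_add]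
    exact add_mem ha hb

theorem exists_smul_mem [Algebra.FiniteType k R] {ι : Type*} [Fintype ι] (φ : R →ₐ[k] k)
    (X : ι → R) (hX : Span φ X) :
    ∃ r : R, φ r = 1 ∧ ∀ w : Ω[R⁄k], r • w ∈ Submodule.span R (Set.range fun j => D k R (X j)) := by
  have hfg : (⊤ : Submodule R (Ω[R⁄k])).FG := Module.Finite.fg_top
  have hle : (⊤ : Submodule R (Ω[R⁄k])) ≤
      Submodule.span R (Set.range fun j => D k R (X j)) ⊔ RingHom.ker φ • ⊤ := by
    refine (span_range_derivation k R).symm.le.trans (Submodule.span_le.2 ?_)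
    rintro _ ⟨s, rfl⟩
    obtain ⟨c, hc⟩ := hX s
    have h1 := D_mem_of_mem_sq φ hc
    rw [map_sub, map_sub, Derivation.map_algebraMap, sub_zero, map_sum] at h1
    have h2 : ∑ j, D k R (c j • (X j - algebraMap k R (φ (X j)))) ∈
        Submodule.span R (Set.range fun j => D k R (X j)) := by
      refine Submodule.sum_mem _ fun j _ => ?_
      rw [Derivation.map_smul, map_sub, Derivation.map_algebraMap, sub_zero]
      rw [← algebraMap_smul R (c j) (D k R (X j))]
      exact Submodule.smul_mem _ _ (Submodule.subset_span ⟨j, rfl⟩)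
    rw [SetLike.mem_coe, Submodule.mem_sup]
    exact ⟨_, h2, _, h1, add_sub_cancel _ _⟩
  obtain ⟨r, hr, hr2⟩ := Submodule.exists_sub_one_mem_and_smul_le_of_fg_of_le_sup hfg
    (le_refl _) hle
  refine ⟨r, ?_, fun w => hr2 (Submodule.smul_mem_pointwise_smul w r ⊤ trivial)⟩
  rw [RingHom.mem_ker] at hr
  have : φ (r - 1) = 0 := hr
  rw [map_sub, map_one, sub_eq_zero] at this
  exact this

theorem exists_smul_D [Algebra.FiniteType k R] {ι : Type*} [Fintype ι] (φ : R →ₐ[k] k)
    (X : ι → R) (hX : Span φ X) :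
    ∃ r : R, φ r = 1 ∧ ∀ s : R, ∃ a : ι → R, r • D k R s = ∑ j, a j • D k R (X j) := by
  obtain ⟨r, hr, h⟩ := exists_smul_mem φ X hX
  refine ⟨r, hr, fun s => ?_⟩
  have := h (D k R s)
  rw [Submodule.mem_span_range_iff_exists_fun] at this
  obtain ⟨a, ha⟩ := this
  exact ⟨a, ha.symm⟩

/-- The form of the hypothesis with denominators. -/
theorem span_of_regular {ι : Type*} [Fintype ι] (φ : R →ₐ[k] k) (X : ι → R)
    (hX : ∀ s, φ s = 0 → ∃ h, φ h ≠ 0 ∧
      h * s ∈ Ideal.span (Set.range fun j => X j - algebraMap k R (φ (X j)))) : Span φ X := by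
  intro s
  obtain ⟨h, hh, hs⟩ := hX (s - algebraMap k R (φ s)) (by simp)
  rw [Ideal.span, Submodule.mem_span_range_iff_exists_fun] at hs
  obtain ⟨b, hb⟩ := hs
  refine ⟨fun j => (φ h)⁻¹ * φ (b j), ?_⟩
  set s' := s - algebraMap k R (φ s) with hs'
  have hs'0 : φ s' = 0 := by simp [hs']
  have key : s' - ∑ j, ((φ h)⁻¹ * φ (b j)) • (X j - algebraMap k R (φ (X j))) =
      algebraMap k R (φ h)⁻¹ * (-((h - algebraMap k R (φ h)) * s') +
        ∑ j, (b j - algebraMap k R (φ (b j))) * (X j - algebraMap k R (φ (X j)))) := by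
    have h1 : algebraMap k R (φ h)⁻¹ * algebraMap k R (φ h) = 1 := by
      rw [← map_mul, inv_mul_cancel₀ hh, map_one]
    have h2 : ∑ j, (b j - algebraMap k R (φ (b j))) * (X j - algebraMap k R (φ (X j))) =
        h * s' - ∑ j, algebraMap k R (φ (b j)) * (X j - algebraMap k R (φ (X j))) := by
      rw [← hb]
      simp only [sub_mul, smul_eq_mul, Finset.sum_sub_distrib]
    rw [h2]
    have h3 : ∑ j, ((φ h)⁻¹ * φ (b j)) • (X j - algebraMap k R (φ (X j))) =
        algebraMap k R (φ h)⁻¹ *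
          ∑ j, algebraMap k R (φ (b j)) * (X j - algebraMap k R (φ (X j))) := by
      rw [Finset.mul_sum]
      refine Finset.sum_congr rfl fun j _ => ?_
      rw [Algebra.smul_def, map_mul, mul_assoc]
    rw [h3]
    linear_combination (-s') * h1
  rw [key]
  refine Ideal.mul_mem_left _ _ (add_mem (neg_mem ?_) (Submodule.sum_mem _ fun j _ => ?_))
  · rw [pow_two]
    exact Ideal.mul_mem_mul (by rw [RingHom.mem_ker]; simp) (by rw [RingHom.mem_ker]; exact hs'0)
  · rw [pow_two]
    exact Ideal.mul_mem_mul (by rw [RingHom.mem_ker]; simp) (by rw [RingHom.mem_ker]; simp)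

end Nak

end Vale.Agent.P271.H995
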