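import Vale.Agent.P271.H989.Cot
import Vale.Agent.P271.H741.Chart
import Vale.Agent.P271.H995.Kah

/-!
# P271 / DER (D2): derivations of `R` in an analytic chart (helper995)
-/

namespace Vale.Agent.P271.H995

open Vale.Agent.P271.Sch Vale.Agent.P271.H989 Vale.Agent.P271.H741 Module Metric Filter Topology

/-- A point derivation at `χ`. -/
def PtDer {R : Type*} [CommRing R] [Algebra ℂ R] (χ : R →ₐ[ℂ] ℂ) (v : R →ₗ[ℂ] ℂ) : Prop :=
  ∀ a b, v (a * b) = χ a * v b + χ b * v a

section

variable {R : Type*} [CommRing R] [Algebra ℂ R] {χ : R →ₐ[ℂ] ℂ} {v : R →ₗ[ℂ] ℂ}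

theorem PtDer.algebraMap (hv : PtDer χ v) (c : ℂ) : v (algebraMap ℂ R c) = 0 := by
  have h1 : v 1 = 0 := by
    have := hv 1 1
    simp at this
    exact this
  rw [Algebra.algebraMap_eq_smul_one, map_smul, h1, smul_zero]

theorem PtDer.eq_zero_of_mem_sq (hv : PtDer χ v) {s : R} (hs : s ∈ RingHom.ker χ ^ 2) :
    v s = 0 := by
  rw [pow_two] at hs
  refine Submodule.mul_induction_on hs ?_ ?_
  · intro a ha b hb
    have ha' : χ a = 0 := ha
    have hb' : χ b = 0 := hb
    rw [hv, ha', hb', zero_mul, zero_mul, add_zero]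
  · intro a b ha hb
    rw [map_add, ha, hb, add_zero]

theorem PtDer.eq_zero_of_dl (hv : PtDer χ v) {s : R} (hs : dl χ s = 0) : v s = 0 := by
  rw [dl_apply, Ideal.Quotient.eq_zero_iff_mem] at hs
  have h := hv.eq_zero_of_mem_sq hs
  rw [map_sub, hv.algebraMap, sub_zero] at h
  exact h

/-- If the cotangent space has dimension at most `card ι`, then a point derivation is determined by
its values at the elements `X j` of a dual system. -/
theorem ptDer_eq {ι : Type*} [Fintype ι] [FiniteDimensional ℂ (LinearMap.range (dl χ))]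
    (hdim : finrank ℂ (LinearMap.range (dl χ)) ≤ Fintype.card ι) [DecidableEq ι]
    {w : ι → (R →ₗ[ℂ] ℂ)} (hw : ∀ k, PtDer χ (w k)) {X : ι → R}
    (hX : ∀ k j, w k (X j) = if k = j then 1 else 0) (s : R) :
    ∃ a : ι → ℂ, dl χ s = ∑ j, a j • dl χ (X j) ∧ (∀ k, w k s = a k) ∧
      ∀ v : R →ₗ[ℂ] ℂ, PtDer χ v → v s = ∑ j, a j * v (X j) := by
  have hli : LinearIndependent ℂ fun j => dl χ (X j) := by
    rw [Fintype.linearIndependent_iff]
    intro g hg k
    have h1 : dl χ (∑ j, g j • X j) = 0 := by rw [map_sum]; simpa only [map_smul] using hg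
    have h2 := (hw k).eq_zero_of_dl h1
    rw [map_sum] at h2
    simp only [map_smul, hX, smul_eq_mul, mul_ite, mul_one, mul_zero] at h2
    rwa [Finset.sum_ite_eq, if_pos (Finset.mem_univ k)] at h2
  have hle : Submodule.span ℂ (Set.range fun j => dl χ (X j)) ≤ LinearMap.range (dl χ) := by
    rw [Submodule.span_le]
    rintro _ ⟨j, rfl⟩
    exact ⟨X j, rfl⟩
  have heq : Submodule.span ℂ (Set.range fun j => dl χ (X j)) = LinearMap.range (dl χ) := by
    refine Submodule.eq_of_le_of_finrank_le hle ?_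
    rw [finrank_span_eq_card hli]
    exact hdim
  have hmem : dl χ s ∈ Submodule.span ℂ (Set.range fun j => dl χ (X j)) := by
    rw [heq]; exact ⟨s, rfl⟩
  rw [Submodule.mem_span_range_iff_exists_fun] at hmem
  obtain ⟨a, ha⟩ := hmem
  have key : ∀ v : R →ₗ[ℂ] ℂ, PtDer χ v → v s = ∑ j, a j * v (X j) := by
    intro v hv
    have h1 : dl χ (s - ∑ j, a j • X j) = 0 := by
      rw [map_sub, map_sum, ← ha]
      simp only [map_smul, sub_self]
    have h2 := hv.eq_zero_of_dl h1
    rw [map_sub, map_sum, sub_eq_zero] at h2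
    rw [h2]
    simp only [map_smul, smul_eq_mul]
  refine ⟨a, ha.symm, fun k => ?_, key⟩
  rw [key _ (hw k)]
  simp only [hX, mul_ite, mul_one, mul_zero]
  rw [Finset.sum_ite_eq, if_pos (Finset.mem_univ k)]

end

section Cone

variable {n : ℕ} {C : GCone n}

/-- The cotangent space at a point different from the vertex. -/
theorem finrank_range_dl (χ : C.Pt) (hχ : GCone.NV χ) :
    FiniteDimensional ℂ (LinearMap.range (dl χ)) ∧
      finrank ℂ (LinearMap.range (dl χ)) ≤ n + 1 := by
  have hnoeth : IsNoetherianRing C.R := by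
    have := C.finiteType
    exact Algebra.FiniteType.isNoetherianRing ℂ C.R
  have hmax : (RingHom.ker χ).IsMaximal := ker_isMaximal χ
  obtain ⟨hreg, hdim⟩ := C.regular (RingHom.ker χ) hχ
  have hsf : (IsLocalRing.maximalIdeal (Localization.AtPrime (RingHom.ker χ))).spanFinrank
      ≤ n + 1 := by
    have h1 := hreg.spanFinrank_maximalIdeal
    rw [hdim] at h1
    exact le_of_eq (by exact_mod_cast h1)
  have hN' : IsNoetherianRing (Localization.AtPrime (RingHom.ker χ)) := inferInstance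
  exact exists_span_dl χ hsf (IsNoetherian.noetherian _)

/-- Point derivations of a cone: `v s = ∑_k w_k(s) v(X_k)`. -/
theorem GCone_ptDer (χ : C.Pt) (hχ : GCone.NV χ) {w : Fin (n + 1) → (C.R →ₗ[ℂ] ℂ)}
    (hw : ∀ k, PtDer χ (w k)) {X : Fin (n + 1) → C.R}
    (hX : ∀ k j, w k (X j) = if k = j then 1 else 0) {v : C.R →ₗ[ℂ] ℂ} (hv : PtDer χ v) (s : C.R) :
    v s = ∑ k, v (X k) * w k s := by
  obtain ⟨h1, h2⟩ := finrank_range_dl χ hχ
  obtain ⟨a, -, ha, h⟩ := ptDer_eq (by rwa [Fintype.card_fin]) hw hX s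
  rw [h v hv]
  exact Finset.sum_congr rfl fun k _ => by rw [ha, mul_comm]

/-- A dual system spans the cotangent space. -/
theorem GCone_span (χ : C.Pt) (hχ : GCone.NV χ) {w : Fin (n + 1) → (C.R →ₗ[ℂ] ℂ)}
    (hw : ∀ k, PtDer χ (w k)) {X : Fin (n + 1) → C.R}
    (hX : ∀ k j, w k (X j) = if k = j then 1 else 0) : Span χ X := by
  intro s
  obtain ⟨h1, h2⟩ := finrank_range_dl χ hχ
  obtain ⟨a, ha, -, -⟩ := ptDer_eq (by rwa [Fintype.card_fin]) hw hX s
  refine ⟨a, ?_⟩
  rw [← Ideal.Quotient.eq_zero_iff_mem, map_sub, ← dl_apply, ha, map_sum, sub_eq_zero]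
  refine Finset.sum_congr rfl fun j _ => ?_
  rw [dl_apply, Algebra.smul_def, Algebra.smul_def, map_mul]
  rfl

/-- The partial derivatives at a point of a chart are point derivations. -/
noncomputable def pd {R : Type*} [CommRing R] [Algebra ℂ R] {m : ℕ}
    (pt : (Fin m → ℂ) → (R →ₐ[ℂ] ℂ)) (x : Fin m → ℂ)
    (h : ∀ s, DifferentiableAt ℂ (fun y => pt y s) x) (u : Fin m → ℂ) : R →ₗ[ℂ] ℂ where
  toFun s := fderiv ℂ (fun y => pt y s) x u
  map_add' s t := by
    have : (fun y => pt y (s + t)) = (fun y => pt y s) + fun y => pt y t := by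
      funext y; simp
    rw [this, fderiv_add (h s) (h t)]
    rfl
  map_smul' c s := by
    have : (fun y => pt y (c • s)) = c • fun y => pt y s := by
      funext y; simp
    rw [this, fderiv_const_smul (h s)]
    rfl

theorem pd_ptDer {R : Type*} [CommRing R] [Algebra ℂ R] {m : ℕ}
    (pt : (Fin m → ℂ) → (R →ₐ[ℂ] ℂ)) (x : Fin m → ℂ)
    (h : ∀ s, DifferentiableAt ℂ (fun y => pt y s) x) (u : Fin m → ℂ) :
    PtDer (pt x) (pd pt x h u) := by
  intro a b
  change fderiv ℂ (fun y => pt y (a * b)) x u = _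
  have : (fun y => pt y (a * b)) = (fun y => pt y a) * fun y => pt y b := by
    funext y; simp
  rw [this, fderiv_mul (h a) (h b)]
  rfl

theorem comp_der_ptDer {R : Type*} [CommRing R] [Algebra ℂ R] (χ : R →ₐ[ℂ] ℂ)
    (D : Derivation ℂ R R) : PtDer χ (χ.toLinearMap.comp D.toLinearMap) := by
  intro a b
  change χ (D (a * b)) = χ a * χ (D b) + χ b * χ (D a)
  rw [Derivation.leibniz, map_add, smul_eq_mul, smul_eq_mul, map_mul, map_mul]

variable {pt : (Fin (n + 1) → ℂ) → C.Pt} {r : ℝ} {X : Fin (n + 1) → C.R}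
  {x0 : Fin (n + 1) → ℂ}

theorem pd_coord {x : Fin (n + 1) → ℂ} (hx : x ∈ ball x0 r)
    (h : ∀ s, DifferentiableAt ℂ (fun y => pt y s) x) {c : Fin (n + 1) → ℂ}
    (hX : ∀ y ∈ ball x0 r, ∀ j, pt y (X j) = c j + y j) (k j : Fin (n + 1)) :
    pd pt x h (Pi.single k 1) (X j) = if k = j then 1 else 0 := by
  have h1 : (fun y => pt y (X j)) =ᶠ[𝓝 x] fun y => c j + y j := by
    filter_upwards [isOpen_ball.mem_nhds hx] with y hy using hX y hy j
  change fderiv ℂ (fun y => pt y (X j)) x (Pi.single k 1) = _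
  rw [h1.fderiv_eq, fderiv_const_add]
  have h2 : HasFDerivAt (fun y : Fin (n + 1) → ℂ => y j)
      (ContinuousLinearMap.proj j : (Fin (n + 1) → ℂ) →L[ℂ] ℂ) x := hasFDerivAt_apply j x
  rw [h2.fderiv, ContinuousLinearMap.proj_apply, Pi.single_apply]
  simp only [eq_comm]

/-- **(D2) at a point.** -/
theorem chain_at {x : Fin (n + 1) → ℂ} (hx : x ∈ ball x0 r) (hNV : GCone.NV (pt x))
    (h : ∀ s, DifferentiableAt ℂ (fun y => pt y s) x) {c : Fin (n + 1) → ℂ}
    (hX : ∀ y ∈ ball x0 r, ∀ j, pt y (X j) = c j + y j) {v : C.R →ₗ[ℂ] ℂ}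
    (hv : PtDer (pt x) v) (s : C.R) :
    v s = ∑ k, v (X k) * fderiv ℂ (fun y => pt y s) x (Pi.single k 1) :=
  GCone_ptDer (pt x) hNV (fun k => pd_ptDer pt x h (Pi.single k 1)) (pd_coord hx h hX) hv s

theorem eventually_NV (hr : x0 ∈ ball x0 r) (h : ∀ s, AnalyticOnNhd ℂ (fun y => pt y s) (ball x0 r))
    (hNV : GCone.NV (pt x0)) : ∀ᶠ x in 𝓝 x0, GCone.NV (pt x) := by
  obtain ⟨k, hk, s, hs, h0⟩ := hNV
  have hc : ContinuousAt (fun y => pt y s) x0 := (h s x0 hr).continuousAt
  filter_upwards [hc.eventually_ne h0] with x hx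
  exact ⟨k, hk, s, hs, hx⟩

/-- **(D2)** The chain rule in an analytic chart with coordinates `X`, on the whole ball. -/
theorem chain (hr : 0 < r) (h : ∀ s, AnalyticOnNhd ℂ (fun y => pt y s) (ball x0 r))
    (hNV : GCone.NV (pt x0)) {c : Fin (n + 1) → ℂ}
    (hX : ∀ y ∈ ball x0 r, ∀ j, pt y (X j) = c j + y j) (D : Derivation ℂ C.R C.R) (s : C.R)
    {x : Fin (n + 1) → ℂ} (hx : x ∈ ball x0 r) :
    pt x (D s) = ∑ k, pt x (D (X k)) * fderiv ℂ (fun y => pt y s) x (Pi.single k 1) := by
  have h0 : x0 ∈ ball x0 r := mem_ball_self hr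
  have hA : AnalyticOnNhd ℂ (fun x => pt x (D s)) (ball x0 r) := h (D s)
  have hB : AnalyticOnNhd ℂ
      (fun x => ∑ k, pt x (D (X k)) * fderiv ℂ (fun y => pt y s) x (Pi.single k 1)) (ball x0 r) := by
    refine Finset.analyticOnNhd_fun_sum _ fun k _ => ?_
    refine (h (D (X k))).mul ?_
    intro y hy
    have h1 : AnalyticAt ℂ (fderiv ℂ fun y => pt y s) y := (h s y hy).fderiv
    exact ((ContinuousLinearMap.apply ℂ ℂ (Pi.single k 1 : Fin (n + 1) → ℂ)).analyticAt _).comp h1
  refine hA.eqOn_of_preconnected_of_eventuallyEq hB (convex_ball x0 r).isPreconnected h0 ?_ hx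
  filter_upwards [isOpen_ball.mem_nhds h0, eventually_NV h0 h hNV] with y hy hyNV
  exact chain_at (v := (pt y).toLinearMap.comp D.toLinearMap) hy hyNV
    (fun s => (h s y hy).differentiableAt) hX (comp_der_ptDer (pt y) D) s

/-- The same for a chart of helper741 / helper879 / helper570. -/
theorem chain_chart {φ : C.Pt} (hφ : GCone.NV φ) (c : Chart φ (n + 1)) (D : Derivation ℂ C.R C.R)
    (s : C.R) {x : Fin (n + 1) → ℂ} (hx : x ∈ ball (0 : Fin (n + 1) → ℂ) c.ρ) :
    c.ψ x (D s) = ∑ k, c.ψ x (D (c.t k)) * fderiv ℂ (fun y => c.ψ y s) x (Pi.single k 1) := by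
  refine chain (X := c.t) (x0 := 0) (c := fun _ => 0) c.ρ_pos c.holo (by rwa [c.zero]) ?_ D s hx
  intro y hy j
  rw [c.coord y hy j, zero_add]

end Cone

section Restrict

variable {R : Type*} [CommRing R] [Algebra ℂ R] {K : Type*} [Field K] [Algebra ℂ K] [Algebra R K]
  [IsScalarTower ℂ R K] [FaithfulSMul R K]

/-- A derivation of `K` which maps `R` to `R`, as a derivation of `R`. -/
noncomputable def restrictDerAux (D : Derivation ℂ K K) (f : R → R)
    (hf : ∀ s : R, algebraMap R K (f s) = D (algebraMap R K s)) : Derivation ℂ R R :=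
  Derivation.mk'
    { toFun := f
      map_add' := fun s t => FaithfulSMul.algebraMap_injective R K (by
        rw [map_add, hf, hf, hf, map_add, map_add])
      map_smul' := fun c s => FaithfulSMul.algebraMap_injective R K (by
        rw [hf, RingHom.id_apply, Algebra.smul_def c s, map_mul,
          ← IsScalarTower.algebraMap_apply, ← Algebra.smul_def, Derivation.map_smul,
          Algebra.smul_def c (f s), map_mul, hf,
          ← IsScalarTower.algebraMap_apply, ← Algebra.smul_def]) }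
    (fun a b => FaithfulSMul.algebraMap_injective R K (by
      change algebraMap R K (f (a * b)) = algebraMap R K (a • f b + b • f a)
      rw [hf, smul_eq_mul, smul_eq_mul, map_add, map_mul, Derivation.leibniz, smul_eq_mul,
        smul_eq_mul, map_mul, map_mul, hf, hf]))

/-- A derivation of `K` which maps `R` to `R`, as a derivation of `R`. -/
noncomputable def restrictDer (D : Derivation ℂ K K)
    (h : ∀ s : R, ∃ s' : R, algebraMap R K s' = D (algebraMap R K s)) : Derivation ℂ R R :=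
  restrictDerAux D (fun s => (h s).choose) (fun s => (h s).choose_spec)

theorem algebraMap_restrictDer (D : Derivation ℂ K K)
    (h : ∀ s : R, ∃ s' : R, algebraMap R K s' = D (algebraMap R K s)) (s : R) :
    algebraMap R K (restrictDer D h s) = D (algebraMap R K s) := (h s).choose_spec

end Restrict

end Vale.Agent.P271.H995
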