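import Vale.Agent.P271.H989.Choice
import Vale.Agent.P271.Sch.Hub

/-!
# P271 / DER (D1): homogeneous components of derivations (helper995)
-/

namespace Vale.Agent.P271.H995

open DirectSum Vale.Agent.P271.Sch

section Comp

variable {k R : Type*} [Field k] [CommRing R] [Algebra k R] (A : ℕ → Submodule k R)
  [GradedAlgebra A]

/-- The component of degree `j : ℤ`. -/
noncomputable def prj (j : ℤ) : R →ₗ[k] R :=
  if 0 ≤ j then GradedAlgebra.proj A j.toNat else 0

variable {A}

theorem prj_nat (l : ℕ) (f : R) : prj A (l : ℤ) f = (decompose A f l : R) := by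
  unfold prj
  rw [if_pos (Int.natCast_nonneg l), Int.toNat_natCast]
  rfl

theorem prj_neg {j : ℤ} (hj : j < 0) (f : R) : prj A j f = 0 := by
  unfold prj
  rw [if_neg (not_le.2 hj)]
  rfl

theorem prj_mem {j : ℤ} {l : ℕ} (h : j = l) (f : R) : prj A j f ∈ A l := by
  rw [h, prj_nat]
  exact (decompose A f l).2

theorem prj_mul {m : ℕ} {s : R} (hs : s ∈ A m) (f : R) (j : ℤ) :
    prj A (m + j) (s * f) = s * prj A j f := by
  rcases lt_or_ge j 0 with hj | hj
  · rw [prj_neg hj, mul_zero]
    rcases lt_or_ge ((m : ℤ) + j) 0 with h | h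
    · exact prj_neg h _
    · obtain ⟨l, hl⟩ := Int.eq_ofNat_of_zero_le h
      rw [hl]
      have hlm : ¬ m ≤ l := by omega
      rw [show ((l : ℕ) : ℤ) = Int.ofNat l from rfl] at *
      exact (prj_nat l _).trans (coe_decompose_mul_of_left_mem_of_not_le A hs hlm)
  · obtain ⟨l, rfl⟩ := Int.eq_ofNat_of_zero_le hj
    rw [← Nat.cast_add, prj_nat, prj_nat]
    exact coe_decompose_mul_add_of_left_mem A hs

/-- The linear map underlying the component of shift `t` of `E`. -/
noncomputable def compLin (E : Derivation k R R) (t : ℤ) : R →ₗ[k] R :=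
  (DirectSum.toModule k ℕ R fun m =>
    (prj A (m + t)).comp (E.toLinearMap.comp (A m).subtype)).comp
      (decomposeLinearEquiv A).toLinearMap

theorem compLin_apply (E : Derivation k R R) (t : ℤ) {m : ℕ} {s : R} (hs : s ∈ A m) :
    compLin (A := A) E t s = prj A (m + t) (E s) := by
  unfold compLin
  rw [LinearMap.comp_apply]
  change (DirectSum.toModule k ℕ R _) (decompose A s) = _
  rw [decompose_of_mem A hs]
  erw [DirectSum.toModule_lof]
  rfl

theorem compLin_leibniz (E : Derivation k R R) (t : ℤ) (a b : R) :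
    compLin (A := A) E t (a * b) = a • compLin (A := A) E t b + b • compLin (A := A) E t a := by
  induction a using DirectSum.Decomposition.inductionOn A with
  | zero => simp
  | @homogeneous i a =>
    induction b using DirectSum.Decomposition.inductionOn A with
    | zero => simp
    | @homogeneous j b =>
      have hab : (a : R) * b ∈ A (i + j) := SetLike.mul_mem_graded a.2 b.2
      rw [compLin_apply E t hab, compLin_apply E t a.2, compLin_apply E t b.2,
        Derivation.leibniz, map_add, smul_eq_mul, smul_eq_mul, smul_eq_mul, smul_eq_mul]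
      congr 1
      · rw [← prj_mul a.2]
        congr 1
        congr 1
        push_cast; ring
      · rw [← prj_mul b.2]
        congr 1
        congr 1
        push_cast; ring
    | add b b' hb hb' =>
      rw [mul_add, map_add, map_add, hb, hb', smul_add, add_smul]
      abel
  | add a a' ha ha' =>
    rw [add_mul, map_add, map_add, ha, ha', smul_add, add_smul]
    abel

/-- The homogeneous component of shift `t` of a derivation. -/
noncomputable def comp (E : Derivation k R R) (t : ℤ) : Derivation k R R :=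
  Derivation.mk' (compLin (A := A) E t) (compLin_leibniz E t)

theorem comp_apply (E : Derivation k R R) (t : ℤ) {m : ℕ} {s : R} (hs : s ∈ A m) :
    comp (A := A) E t s = prj A (m + t) (E s) := compLin_apply E t hs

theorem sum_prj (f : R) (m : ℕ) : ∃ T : Finset ℤ, ∀ T' : Finset ℤ, T ⊆ T' →
    ∑ t ∈ T', prj A (m + t) f = f := by
  classical
  refine ⟨(decompose A f).support.image fun l : ℕ => (l : ℤ) - m, fun T' hT => ?_⟩
  rw [← Finset.sum_subset hT]
  · rw [Finset.sum_image]
    · conv_rhs => rw [← sum_support_decompose A f]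
      refine Finset.sum_congr rfl fun l _ => ?_
      rw [show (m : ℤ) + ((l : ℤ) - m) = l by ring, prj_nat]
    · intro a _ b _ h
      have : (a : ℤ) - m = b - m := h
      omega
  · intro t _ ht
    rcases lt_or_ge ((m : ℤ) + t) 0 with h | h
    · exact prj_neg h _
    · obtain ⟨l, hl⟩ := Int.eq_ofNat_of_zero_le h
      rw [hl]
      refine (prj_nat l _).trans ?_
      by_contra hne
      refine ht (Finset.mem_image.2 ⟨l, ?_, by omega⟩)
      rw [DFinsupp.mem_support_iff]
      intro h0
      apply hne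
      rw [h0]
      rfl

theorem sum_comp (E : Derivation k R R) (s : R) : ∃ T : Finset ℤ, ∀ T' : Finset ℤ, T ⊆ T' →
    ∑ t ∈ T', comp (A := A) E t s = E s := by
  classical
  induction s using DirectSum.Decomposition.inductionOn A with
  | zero => exact ⟨∅, fun T' _ => by simp⟩
  | @homogeneous m s =>
    obtain ⟨T, hT⟩ := sum_prj (A := A) (E (s : R)) m
    refine ⟨T, fun T' h => ?_⟩
    rw [← hT T' h]
    exact Finset.sum_congr rfl fun t _ => comp_apply E t s.2
  | add a b ha hb =>
    obtain ⟨T1, h1⟩ := ha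
    obtain ⟨T2, h2⟩ := hb
    refine ⟨T1 ∪ T2, fun T' h => ?_⟩
    rw [map_add, ← h1 T' (Finset.union_subset_left h), ← h2 T' (Finset.union_subset_right h),
      ← Finset.sum_add_distrib]
    exact Finset.sum_congr rfl fun t _ => map_add _ _ _

/-- Some choice of homogeneous components has nonzero determinant. -/
theorem exists_comp {ι : Type*} [Fintype ι] [DecidableEq ι] (φ : R →ₐ[k] k) (X : ι → R)
    (E : ι → Derivation k R R) (hdet : (Matrix.of fun i j => φ (E i (X j))).det ≠ 0) :
    ∃ τ : ι → ℤ, (Matrix.of fun i j => φ (comp (A := A) (E i) (τ i) (X j))).det ≠ 0 := by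
  classical
  choose T hT using fun i j => sum_comp (A := A) (E i) (X j)
  let T0 : Finset ℤ := Finset.univ.biUnion fun i => Finset.univ.biUnion fun j => T i j
  have hsub : ∀ i j, T i j ⊆ T0 := by
    intro i j t ht
    simp only [T0, Finset.mem_biUnion, Finset.mem_univ, true_and]
    exact ⟨i, j, ht⟩
  by_contra hcon
  push Not at hcon
  apply hdet
  have h1 : (Matrix.of fun i j => φ (E i (X j))) =
      fun i => ∑ t ∈ T0, fun j => φ (comp (A := A) (E i) t (X j)) := by
    funext i j
    rw [Finset.sum_apply, ← map_sum, hT i j T0 (hsub i j)]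
    rfl
  have h2 : (Matrix.of fun i j => φ (E i (X j))).det =
      (Matrix.detRowAlternating (n := ι) (R := k)).toMultilinearMap
        (fun i => ∑ t ∈ T0, fun j => φ (comp (A := A) (E i) t (X j))) := by
    rw [h1]; rfl
  rw [h2, MultilinearMap.map_sum_finset]
  refine Finset.sum_eq_zero fun r _ => ?_
  exact hcon r

/-- **Homogenisation.** If `φ` does not vanish on some homogeneous elements of consecutive degrees
`κ`, `κ + 1`, derivations with nonzero determinant at `φ` can be replaced by homogeneous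
derivations of one degree shift. -/
theorem exists_homogeneous {ι : Type*} [Fintype ι] [DecidableEq ι] (φ : R →ₐ[k] k) (X : ι → R)
    (E : ι → Derivation k R R) (hdet : (Matrix.of fun i j => φ (E i (X j))).det ≠ 0)
    {κ : ℕ} {s s' : R} (hs : s ∈ A κ) (hs' : s' ∈ A (κ + 1)) (h0 : φ s ≠ 0) (h0' : φ s' ≠ 0) :
    ∃ (M₁ : ℕ) (θ : ι → Derivation k R R), (∀ i m, ∀ f ∈ A m, θ i f ∈ A (m + M₁)) ∧
      (Matrix.of fun i j => φ (θ i (X j))).det ≠ 0 := by
  classical
  obtain ⟨τ, hτ⟩ := exists_comp (A := A) φ X E hdet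
  have hu : ∀ M : ℕ, κ * κ ≤ M → ∃ u ∈ A M, φ u ≠ 0 := by
    intro M hM
    obtain ⟨a, b, hab⟩ := Vale.Agent.P271.H989.exists_rep κ M hM
    refine ⟨s ^ a * s' ^ b, ?_, ?_⟩
    · have h1 := SetLike.pow_mem_graded (A := A) a hs
      have h2 := SetLike.pow_mem_graded (A := A) b hs'
      have h3 := SetLike.mul_mem_graded h1 h2
      simp only [smul_eq_mul] at h3
      rwa [hab] at h3
    · rw [map_mul, map_pow, map_pow]
      exact mul_ne_zero (pow_ne_zero _ h0) (pow_ne_zero _ h0')
  let M₁ : ℕ := κ * κ + ∑ i, (τ i).natAbs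
  have hM : ∀ i, ∃ d : ℕ, κ * κ ≤ d ∧ (d : ℤ) + τ i = M₁ := by
    intro i
    have h1 : (τ i).natAbs ≤ ∑ i, (τ i).natAbs :=
      Finset.single_le_sum (f := fun i => (τ i).natAbs) (fun _ _ => Nat.zero_le _)
        (Finset.mem_univ i)
    have h2 : M₁ = κ * κ + ∑ i, (τ i).natAbs := rfl
    generalize hS : (∑ i, (τ i).natAbs) = S at h1 h2
    generalize hκ : κ * κ = κ2 at h2 ⊢
    refine ⟨((M₁ : ℤ) - τ i).toNat, ?_, ?_⟩ <;> omega
  choose d hd hd' using hM
  choose u hu1 hu2 using fun i => hu (d i) (hd i)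
  refine ⟨M₁, fun i => u i • comp (A := A) (E i) (τ i), ?_, ?_⟩
  · intro i m f hf
    rw [Derivation.smul_apply, comp_apply _ _ hf, smul_eq_mul]
    rcases lt_or_ge ((m : ℤ) + τ i) 0 with h | h
    · rw [prj_neg h, mul_zero]
      exact zero_mem _
    · obtain ⟨l, hl⟩ := Int.eq_ofNat_of_zero_le h
      have h1 : prj A ((m : ℤ) + τ i) (E i f) ∈ A l := prj_mem hl _
      have h2 := SetLike.mul_mem_graded (hu1 i) h1
      have h3 : d i + l = m + M₁ := by
        have := hd' i
        omega
      rwa [h3] at h2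
  · have h1 : (Matrix.of fun i j => φ ((u i • comp (A := A) (E i) (τ i)) (X j))) =
        Matrix.of fun i j => φ (u i) * (Matrix.of fun i j =>
          φ (comp (A := A) (E i) (τ i) (X j))) i j := by
      ext i j
      rw [Matrix.of_apply, Matrix.of_apply, Matrix.of_apply, Derivation.smul_apply, smul_eq_mul,
        map_mul]
    rw [h1, Matrix.det_mul_column]
    exact mul_ne_zero (Finset.prod_ne_zero_iff.2 fun i _ => hu2 i) hτ

end Comp

/-- Homogenisation on a `GCone`. -/
theorem GCone_homogeneous {n : ℕ} (C : GCone n) (φ : C.Pt) (hφ : GCone.NV φ) {ι : Type*}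
    [Fintype ι] [DecidableEq ι] (X : ι → C.R) (E : ι → Derivation ℂ C.R C.R)
    (hdet : (Matrix.of fun i j => φ (E i (X j))).det ≠ 0) :
    ∃ (M₁ : ℕ) (θ : ι → Derivation ℂ C.R C.R), (∀ i m, ∀ s ∈ C.A m, θ i s ∈ C.A (m + M₁)) ∧
      (Matrix.of fun i j => φ (θ i (X j))).det ≠ 0 := by
  have hmax : (RingHom.ker φ).IsMaximal := by
    refine RingHom.ker_isMaximal_of_surjective φ ?_
    intro c
    exact ⟨algebraMap ℂ C.R c, by simp⟩
  obtain ⟨κ, s, hs, s', hs', h0, h0'⟩ := C.free (RingHom.ker φ) hφ
  exact exists_homogeneous φ X E hdet hs hs' h0 h0'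

end Vale.Agent.P271.H995
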